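import Vale.Agent.P194.Reduction

universe u v

/-- If `𝔽_p[Γ]` is directly finite for every finitely presented group `Γ`, then `K[G]` is
stably finite for every field `K` of characteristic `p` and every group `G`. -/
theorem Vale.Agent.Results.P194.PrimeFieldPresented.result (p : ℕ) [Fact p.Prime]
    (h : ∀ (Γ : Type) [Group Γ] [Group.IsFinitelyPresented Γ],
      IsDedekindFiniteMonoid (MonoidAlgebra (ZMod p) Γ))
    (K : Type u) [Field K] [CharP K p] (G : Type v) [Group G] :
    IsStablyFiniteRing (MonoidAlgebra K G) :=
  Vale.Agent.P194.main p h K G
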